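import Vale.Agent.P080.Bdl.B1
import Vale.Agent.P080.Bdl.B2

/-!
The interior `C^{1,α}` estimate under comparison with cones, and the equivalence of comparison
with cones and the absolutely minimizing Lipschitz property.
-/

namespace Vale.Agent.P080.H510

open Vale.Agent.P080 Metric Set Filter
open scoped RealInnerProductSpace Topology NNReal

section Full

variable {E : Type} [NormedAddCommGroup E] [InnerProductSpace ℝ E] [CompleteSpace E]

/-- The interior estimate for the functions which enjoy comparison with cones. -/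
def ConeEstimate (E : Type) [NormedAddCommGroup E] [InnerProductSpace ℝ E] [CompleteSpace E]
    (α C : ℝ) : Prop :=
  ∀ (u : E → ℝ) (x₀ : E) (R M : ℝ), 0 < R → ConeComp u (ball x₀ R) →
    (∀ x ∈ ball x₀ R, ∀ y ∈ ball x₀ R, u x - u y ≤ M) →
    ContDiffOn ℝ 1 u (ball x₀ (R / 2)) ∧
    (∀ x ∈ ball x₀ (R / 2), ‖gradient u x‖ ≤ C * (M / R)) ∧
    (∀ x ∈ ball x₀ (R / 2), ∀ y ∈ ball x₀ (R / 2),
      ‖gradient u x - gradient u y‖ ≤ C * (M / R) * (‖x - y‖ / R) ^ α)

theorem coneEstimate_of [FiniteDimensional ℝ E] {α C : ℝ} (hα0 : 0 < α) (hα1 : α < 1)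
    (hC : 1 ≤ C)
    (h : ∀ (u : E → ℝ), Zy.Iso 4 u → ∀ A : E, ‖A‖ ≤ 2 →
      ∃ p : E, ‖p‖ ≤ 2 ∧ ∀ y : E, ‖y‖ ≤ 1 → |u (A + y) - u A - ⟪p, y⟫| ≤ C * ‖y‖ ^ (1 + α))
    (hiso : Nontrivial E → ∀ (u : E → ℝ) (x₀ x : E) (R M : ℝ), 0 < R → 0 < M →
      ConeComp u (Metric.ball x₀ R) →
      (∀ x ∈ Metric.ball x₀ R, ∀ y ∈ Metric.ball x₀ R, u x - u y ≤ M) →
      ‖x - x₀‖ < R / 2 → Zy.Iso 4 (fun y => u (x + (R / 16) • y) / (M / 4))) :
    ConeEstimate E α (4608 * C) := by
  intro u x₀ R M hR hcc hosc
  have hM : 0 ≤ M := by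
    have := hosc x₀ (mem_ball_self hR) x₀ (mem_ball_self hR)
    linarith
  have hmain : (∀ x ∈ ball x₀ (R / 2), DifferentiableAt ℝ u x) ∧
      (∀ x ∈ ball x₀ (R / 2), ‖gradient u x‖ ≤ 4608 * C * (M / R)) ∧
      (∀ x ∈ ball x₀ (R / 2), ∀ y ∈ ball x₀ (R / 2),
        ‖gradient u x - gradient u y‖ ≤ 4608 * C * (M / R) * (‖x - y‖ / R) ^ α) := by
    rcases subsingleton_or_nontrivial E with hsub | hnt
    · refine ⟨fun x _ => (hasFDerivAt_of_subsingleton u x).differentiableAt, ?_, ?_⟩
      · intro x hx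
        rw [Subsingleton.elim (gradient u x) 0, norm_zero]
        (clear * - hC hM hR; positivity)
      · intro x hx y hy
        rw [Subsingleton.elim (gradient u x - gradient u y) 0, norm_zero]
        (clear * - hC hM hR; positivity)
    · rcases hM.eq_or_lt with hM0 | hM0
      · -- constant functions
        have hconst : ∀ x ∈ ball x₀ R, u x = u x₀ := by
          intro x hx
          have h1 := hosc x hx x₀ (mem_ball_self hR)
          have h2 := hosc x₀ (mem_ball_self hR) x hx
          linarith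
        have hg : ∀ x ∈ ball x₀ (R / 2), HasGradientAt u 0 x := by
          intro x hx
          have hx' : x ∈ ball x₀ R := ball_subset_ball (by linarith) hx
          have h1 : u =ᶠ[𝓝 x] fun _ => u x₀ := by
            filter_upwards [isOpen_ball.mem_nhds hx'] with y hy
            exact hconst y hy
          exact (hasGradientAt_const x (u x₀)).congr_of_eventuallyEq h1
        refine ⟨fun x hx => (hg x hx).differentiableAt, ?_, ?_⟩
        · intro x hx
          rw [(hg x hx).gradient, norm_zero]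
          positivity
        · intro x hx y hy
          rw [(hg x hx).gradient, (hg y hy).gradient, sub_zero, norm_zero]
          (clear * - hC hM hR; positivity)
      · have hE : ∀ x ∈ ball x₀ (R / 2), ∃ P : E, ‖P‖ ≤ 8 * (M / R) ∧
            Zy.Expands u x P (3 * R / 4) (8 * (M / R)) (6 * C) α := by
          intro x hx
          rw [mem_ball, dist_eq_norm] at hx
          exact Zy.expands_half hα0 hα1 hC h hR hM0 (hiso hnt u x₀ x R M hR hM0 hcc hosc hx)
        have hg : ∀ x ∈ ball x₀ (R / 2), HasGradientAt u (gradient u x) x ∧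
            ‖gradient u x‖ ≤ 8 * (M / R) ∧
            Zy.Expands u x (gradient u x) (3 * R / 4) (8 * (M / R)) (6 * C) α := by
          intro x hx
          obtain ⟨P, hP1, hP2⟩ := hE x hx
          have h1 := hP2.hasGradientAt (by positivity) hα0
          rw [h1.gradient]
          exact ⟨h1, hP1, hP2⟩
        refine ⟨fun x hx => (hg x hx).1.differentiableAt, ?_, ?_⟩
        · intro x hx
          refine (hg x hx).2.1.trans ?_
          have h1 : 0 < M / R := by positivity
          linarith only [mul_nonneg (le_of_lt (sub_pos.2 h1)) (sub_nonneg.2 hC), h1]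
        · intro x hx y hy
          have h1 := Zy.Expands.norm_sub_le (by positivity) (by positivity) (by linarith) hα0 hα1
            (hg x hx).2.2 (hg y hy).2.2 (hg x hx).2.1 (hg y hy).2.1
          refine h1.trans ?_
          have h2 : ‖x - y‖ / (3 * R / 4) ≤ 2 * (‖x - y‖ / R) := by
            rw [div_le_iff₀ (by positivity)]
            have : 2 * (‖x - y‖ / R) * (3 * R / 4) = 3 / 2 * ‖x - y‖ := by
              field_simp
              ring
            rw [this]
            linarith only [norm_nonneg (x - y)]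
          have h3 : (‖x - y‖ / (3 * R / 4)) ^ α ≤ 2 * (‖x - y‖ / R) ^ α := by
            calc (‖x - y‖ / (3 * R / 4)) ^ α ≤ (2 * (‖x - y‖ / R)) ^ α :=
                  Real.rpow_le_rpow (by positivity) h2 hα0.le
              _ = 2 ^ α * (‖x - y‖ / R) ^ α := Real.mul_rpow (by norm_num) (by positivity)
              _ ≤ 2 * (‖x - y‖ / R) ^ α := by
                  apply mul_le_mul_of_nonneg_right _ (by positivity)
                  calc (2 : ℝ) ^ α ≤ 2 ^ (1 : ℝ) :=
                        Real.rpow_le_rpow_of_exponent_le (by norm_num) hα1.le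
                    _ = 2 := by norm_num
          calc 48 * (6 * C) * (8 * (M / R)) * (‖x - y‖ / (3 * R / 4)) ^ α
              ≤ 48 * (6 * C) * (8 * (M / R)) * (2 * (‖x - y‖ / R) ^ α) := by
                apply mul_le_mul_of_nonneg_left h3 (by positivity)
            _ = 4608 * C * (M / R) * (‖x - y‖ / R) ^ α := by ring
  exact ⟨Zy.contDiffOn_of_gradient_holder isOpen_ball hα0 hmain.1 hmain.2.2, hmain.2.1,
    hmain.2.2⟩

theorem coneEstimate [FiniteDimensional ℝ E] :
    ∃ α : ℝ, 0 < α ∧ α < 1 ∧ ∃ C : ℝ, 0 < C ∧ ConeEstimate E α C := by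
  obtain ⟨α, hα0, hα8, K, hK, hG⟩ := Zy.exists_good_decay (Zy.theoremZ (E := E))
  have hα1 : α < 1 := by linarith
  obtain ⟨C, hC, h⟩ := Zy.iso_expands hα0 hα1 hK hG
  exact ⟨α, hα0, hα1, 4608 * C, by linarith only [hC], coneEstimate_of hα0 hα1 hC h
    fun _ _ _ _ _ _ hR hM hu hosc hx => Zy.iso_of_coneComp hR hM hu hosc hx⟩

theorem contDiffOn_of_cone [FiniteDimensional ℝ E] {Ω : Set E} (hΩ : IsOpen Ω) {u : E → ℝ}
    (hu : ConeComp u Ω) : ContDiffOn ℝ 1 u Ω := by
  obtain ⟨α, -, -, C, -, h⟩ := coneEstimate (E := E)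
  intro x hx
  obtain ⟨R, hR, hball⟩ := Metric.isOpen_iff.1 hΩ x hx
  have hsub : closedBall x (R / 2) ⊆ Ω := (closedBall_subset_ball (by linarith)).trans hball
  have hcpt : IsCompact (closedBall x (R / 2)) := isCompact_closedBall _ _
  obtain ⟨M₁, hM₁⟩ := hcpt.bddAbove_image (hu.cont.mono hsub)
  obtain ⟨M₂, hM₂⟩ := hcpt.bddBelow_image (hu.cont.mono hsub)
  have hR2 : 0 < R / 2 := by linarith
  have h1 := (h u x (R / 2) (M₁ - M₂) hR2
    (Liou.ConeComp_mono hu (ball_subset_closedBall.trans hsub)) fun a ha b hb => by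
      have h2 := hM₁ (mem_image_of_mem u (ball_subset_closedBall ha))
      have h3 := hM₂ (mem_image_of_mem u (ball_subset_closedBall hb))
      linarith).1
  exact (h1.contDiffAt (isOpen_ball.mem_nhds (mem_ball_self (by linarith)))).contDiffWithinAt

end Full

section AML

variable {E : Type*} [NormedAddCommGroup E] [InnerProductSpace ℝ E]

/-- `u` is continuous in `Ω` and absolutely minimizing for the Lipschitz constant: in every
bounded open `V` with closure in `Ω` the Lipschitz constant of `u` is not larger than the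
Lipschitz constant of `u` on the boundary of `V`. -/
def AbsMinLip (u : E → ℝ) (Ω : Set E) : Prop :=
  ContinuousOn u Ω ∧ ∀ V : Set E, IsOpen V → Bornology.IsBounded V → closure V ⊆ Ω →
    ∀ K : ℝ≥0, LipschitzOnWith K u (frontier V) → LipschitzOnWith K u V

theorem AbsMinLip.neg {u : E → ℝ} {Ω : Set E} (h : AbsMinLip u Ω) :
    AbsMinLip (fun x => - u x) Ω := by
  have key : ∀ (K : ℝ≥0) (S : Set E) (w : E → ℝ), LipschitzOnWith K w S →
      LipschitzOnWith K (fun x => - w x) S := by
    intro K S w hw x hx y hy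
    rw [edist_neg_neg]
    exact hw hx hy
  refine ⟨h.1.neg, fun V hV hb hc K hK => key K V u (h.2 V hV hb hc K ?_)⟩
  have := key K (frontier V) _ hK
  simpa using this

theorem exists_frontier_segment {W : Set E} (hW : IsOpen W) {x z : E} (hx : x ∈ W) (hz : z ∉ W) :
    ∃ y ∈ frontier W, y ∈ segment ℝ z x := by
  by_contra hcon
  push Not at hcon
  have hpre : IsPreconnected (segment ℝ z x) := (convex_segment z x).isPreconnected
  have hsub : segment ℝ z x ⊆ W ∪ (closure W)ᶜ := by
    intro y hy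
    by_cases h1 : y ∈ W
    · exact Or.inl h1
    · right
      intro h2
      exact hcon y (by rw [hW.frontier_eq]; exact ⟨h2, h1⟩) hy
  have hdis : Disjoint W (closure W)ᶜ := by
    rw [Set.disjoint_left]
    intro y h1 h2
    exact h2 (subset_closure h1)
  have := hpre.subset_left_of_subset_union hW isClosed_closure.isOpen_compl hdis hsub
    ⟨x, right_mem_segment ℝ z x, hx⟩
  exact hz (this (left_mem_segment ℝ z x))

theorem AbsMinLip.above {u : E → ℝ} {Ω : Set E} (h : AbsMinLip u Ω) {V : Set E} (hV : IsOpen V)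
    (hb : Bornology.IsBounded V) (hc : closure V ⊆ Ω) (z : E) (a b : ℝ) (hb0 : 0 ≤ b)
    (hf : ∀ x ∈ frontier V, u x ≤ a + b * ‖x - z‖) (hz : z ∈ V → u z ≤ a) :
    ∀ x ∈ V, u x ≤ a + b * ‖x - z‖ := by
  intro x1 hx1
  by_contra hlt
  push Not at hlt
  have hcV : ContinuousOn u (closure V) := h.1.mono hc
  have hcone : Continuous fun x : E => a + b * ‖x - z‖ := by fun_prop
  set W : Set E := {x | x ∈ V ∧ a + b * ‖x - z‖ < u x} with hW
  have hWV : W ⊆ V := fun x hx => hx.1
  have hWo : IsOpen W := by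
    rw [isOpen_iff_mem_nhds]
    intro x hx
    have h1 : ContinuousAt u x := hcV.continuousAt (mem_of_superset (hV.mem_nhds hx.1)
      subset_closure)
    have h2 : ∀ᶠ y in 𝓝 x, a + b * ‖y - z‖ < u y :=
      (hcone.continuousAt).eventually_lt h1 hx.2
    filter_upwards [hV.mem_nhds hx.1, h2] with y hy1 hy2
    exact ⟨hy1, hy2⟩
  have hWb : Bornology.IsBounded W := hb.subset hWV
  have hWc : closure W ⊆ closure V := closure_mono hWV
  have hWge : ∀ y ∈ closure W, a + b * ‖y - z‖ ≤ u y := by
    intro y hy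
    have h1 : ContinuousWithinAt u W y := (hcV y (hWc hy)).mono (hWV.trans subset_closure)
    have h2 : ContinuousWithinAt (fun x : E => a + b * ‖x - z‖) W y :=
      hcone.continuousWithinAt
    exact ContinuousWithinAt.closure_le hy h2 h1 fun x hx => hx.2.le
  have hfr : ∀ y ∈ frontier W, u y = a + b * ‖y - z‖ := by
    intro y hy
    rw [hWo.frontier_eq] at hy
    apply le_antisymm _ (hWge y hy.1)
    by_cases hyV : y ∈ V
    · by_contra h3
      exact hy.2 ⟨hyV, not_le.1 h3⟩
    · exact hf y (by rw [hV.frontier_eq]; exact ⟨hWc hy.1, hyV⟩)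
  have hLip : LipschitzOnWith b.toNNReal u (frontier W) := by
    apply LipschitzOnWith.of_dist_le_mul
    intro y hy y' hy'
    rw [Real.coe_toNNReal b hb0, hfr y hy, hfr y' hy', Real.dist_eq, dist_eq_norm]
    have h1 : a + b * ‖y - z‖ - (a + b * ‖y' - z‖) = b * (‖y - z‖ - ‖y' - z‖) := by ring
    rw [h1, abs_mul, abs_of_nonneg hb0]
    apply mul_le_mul_of_nonneg_left _ hb0
    have h2 := abs_norm_sub_norm_le (y - z) (y' - z)
    rwa [sub_sub_sub_cancel_right] at h2
  have hLW : LipschitzOnWith b.toNNReal u (closure W) :=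
    (h.2 W hWo hWb (hWc.trans hc) _ hLip).closure (hcV.mono hWc)
  have hx1W : x1 ∈ W := ⟨hx1, hlt⟩
  have hzW : z ∉ W := by
    intro h1
    have h2 := hz h1.1
    have h3 := h1.2
    rw [sub_self, norm_zero, mul_zero, add_zero] at h3
    linarith
  obtain ⟨y, hy, hys⟩ := exists_frontier_segment hWo hx1W hzW
  have h1 := hLW.dist_le_mul x1 (subset_closure hx1W) y (frontier_subset_closure hy)
  rw [Real.coe_toNNReal b hb0, Real.dist_eq] at h1
  have h2 := dist_add_dist_of_mem_segment hys
  rw [dist_comm z y, dist_comm z x1, dist_comm y x1, dist_eq_norm, dist_eq_norm,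
    dist_eq_norm] at h2
  rw [dist_eq_norm] at h1
  have h3 := hfr y hy
  have h4 := (abs_le.1 h1).2
  have h5 : b * ‖x1 - z‖ = b * ‖y - z‖ + b * ‖x1 - y‖ := by rw [← h2]; ring
  linarith

theorem AbsMinLip.coneComp {u : E → ℝ} {Ω : Set E} (h : AbsMinLip u Ω) : ConeComp u Ω := by
  refine ⟨h.1, fun V hV hb hc z a b hb0 hf hz => h.above hV hb hc z a b hb0 hf hz, ?_⟩
  intro V hV hb hc z a b hb0 hf hz x hx
  have := h.neg.above hV hb hc z (-a) b hb0 (fun y hy => by linarith [hf y hy])
    (fun h => by linarith [hz h]) x hx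
  linarith

theorem absMinLip_of_coneComp {u : E → ℝ} {Ω : Set E} (h : ConeComp u Ω) : AbsMinLip u Ω := by
  refine ⟨h.cont, fun V hV hb hc K hK => ?_⟩
  have h1 : ∀ y ∈ frontier V, ∀ x ∈ V, |u x - u y| ≤ K * ‖x - y‖ := by
    intro y hy x hx
    have hyV : y ∉ V := by
      rw [hV.frontier_eq] at hy
      exact hy.2
    have h2 : ∀ w ∈ frontier V, |u w - u y| ≤ K * ‖w - y‖ := by
      intro w hw
      have := hK.dist_le_mul w hw y hy
      rwa [Real.dist_eq, dist_eq_norm] at this
    have h3 := h.above V hV hb hc y (u y) K K.2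
      (fun w hw => by linarith [(abs_le.1 (h2 w hw)).2]) (fun h => absurd h hyV) x hx
    have h4 := h.below V hV hb hc y (u y) K K.2
      (fun w hw => by linarith [(abs_le.1 (h2 w hw)).1]) (fun h => absurd h hyV) x hx
    rw [abs_le]
    constructor <;> linarith
  apply LipschitzOnWith.of_dist_le_mul
  intro x hx y hy
  rw [Real.dist_eq, dist_eq_norm]
  have h3 := h.above V hV hb hc y (u y) K K.2
    (fun w hw => by
      have := (abs_le.1 (h1 w hw y hy)).1
      rw [norm_sub_rev] at this
      linarith) (fun _ => le_rfl) x hx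
  have h4 := h.below V hV hb hc y (u y) K K.2
    (fun w hw => by
      have := (abs_le.1 (h1 w hw y hy)).2
      rw [norm_sub_rev] at this
      linarith) (fun _ => le_rfl) x hx
  rw [abs_le]
  constructor <;> linarith

end AML

end Vale.Agent.P080.H510
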