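import Vale.Agent.P080.H510.Visc

/-!
The infinity Laplacian in coordinates.
-/

namespace Vale.Agent.P080.H510

open Vale.Agent.P080
open scoped RealInnerProductSpace

/-- The `i`-th partial derivative of `φ`, at every point. -/
noncomputable def pd {d : ℕ} (i : Fin d) (φ : EuclideanSpace ℝ (Fin d) → ℝ) :
    EuclideanSpace ℝ (Fin d) → ℝ :=
  fun z => fderiv ℝ φ z (EuclideanSpace.single i 1)

theorem infLaplacian_coord {d : ℕ} {φ : EuclideanSpace ℝ (Fin d) → ℝ} (hφ : ContDiff ℝ 2 φ)
    (z : EuclideanSpace ℝ (Fin d)) :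
    infLaplacian φ z = ∑ i, ∑ j, pd i φ z * pd j φ z * pd i (pd j φ) z := by
  set e : Fin d → EuclideanSpace ℝ (Fin d) := fun i => EuclideanSpace.single i 1 with he
  set p : EuclideanSpace ℝ (Fin d) := gradient φ z with hp
  have hcd : ContDiff ℝ 1 (fderiv ℝ φ) := hφ.fderiv_right (by norm_num)
  have hd2 : HasFDerivAt (fderiv ℝ φ) (fderiv ℝ (fderiv ℝ φ) z) z :=
    (hcd.differentiable (by norm_num) z).hasFDerivAt
  have h1 : ∀ i j, pd i (pd j φ) z = fderiv ℝ (fderiv ℝ φ) z (e i) (e j) := by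
    intro i j
    have h2 : HasFDerivAt (pd j φ)
        ((ContinuousLinearMap.apply ℝ ℝ (e j)).comp (fderiv ℝ (fderiv ℝ φ) z)) z :=
      (ContinuousLinearMap.apply ℝ ℝ (e j)).hasFDerivAt.comp z hd2
    unfold pd at h2 ⊢
    rw [h2.fderiv]
    rfl
  have h3 : ∀ i, pd i φ z = p i := by
    intro i
    have h4 : fderiv ℝ φ z (e i) = ⟪p, e i⟫ := by
      rw [hp, gradient, InnerProductSpace.toDual_symm_apply]
    unfold pd
    change fderiv ℝ φ z (e i) = p i
    rw [h4, he]
    simp [EuclideanSpace.inner_single_right]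
  have h5 : p = ∑ i, p i • e i := by
    have := (EuclideanSpace.basisFun (Fin d) ℝ).sum_repr p
    simp only [EuclideanSpace.basisFun_repr, EuclideanSpace.basisFun_apply] at this
    exact this.symm
  unfold infLaplacian
  rw [← hp]
  have h6 : ∀ (A : EuclideanSpace ℝ (Fin d) →L[ℝ] EuclideanSpace ℝ (Fin d) →L[ℝ] ℝ),
      A p p = ∑ i, ∑ j, p i * p j * A (e i) (e j) := by
    intro A
    have h7 : A p = ∑ i, p i • A (e i) := by
      conv_lhs => rw [h5]
      rw [map_sum]
      exact Finset.sum_congr rfl fun i _ => map_smul _ _ _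
    rw [h7, ContinuousLinearMap.sum_apply]
    refine Finset.sum_congr rfl fun i _ => ?_
    have h8 : A (e i) p = ∑ j, p j * A (e i) (e j) := by
      conv_lhs => rw [h5]
      rw [map_sum]
      refine Finset.sum_congr rfl fun j _ => ?_
      rw [map_smul, smul_eq_mul]
    rw [smul_apply, smul_eq_mul, h8, Finset.mul_sum]
    exact Finset.sum_congr rfl fun j _ => by ring
  rw [h6]
  refine Finset.sum_congr rfl fun i _ => Finset.sum_congr rfl fun j _ => ?_
  rw [h3, h3, h1]

end Vale.Agent.P080.H510
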