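import Vale.Agent.P080.H510.Stream

/-!
The streamline through a point: differentiability of the limit curve and the two-sided curve.
-/

namespace Vale.Agent.P080.H510

open Vale.Agent.P080 Metric Set Filter
open scoped RealInnerProductSpace Topology NNReal

section Curve

variable {E : Type*} [NormedAddCommGroup E] [InnerProductSpace ℝ E] [CompleteSpace E]

/-- The quantitative heart: a displacement `d` of length at most `|h|` whose product with `p` is
nearly maximal is nearly `h p / |p|`. -/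
theorem near_direction {p d : E} {h ε : ℝ} (hp : 0 < ‖p‖) (hd : ‖d‖ ≤ |h|)
    (hin : h ^ 2 * (‖p‖ - 2 * ε) ≤ h * ⟪p, d⟫) :
    ‖d - h • (‖p‖⁻¹ • p)‖ ^ 2 ≤ 4 * ε / ‖p‖ * h ^ 2 := by
  have h1 : ‖d - h • (‖p‖⁻¹ • p)‖ ^ 2 = ‖d‖ ^ 2 - 2 * (h * ⟪p, d⟫) / ‖p‖ + h ^ 2 := by
    rw [norm_sub_sq_real, real_inner_smul_right, real_inner_smul_right, norm_smul, norm_smul,
      norm_inv, norm_norm, inv_mul_cancel₀ hp.ne', mul_one, Real.norm_eq_abs, sq_abs,
      real_inner_comm]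
    ring
  have h2 : ‖d‖ ^ 2 ≤ h ^ 2 := by
    rw [← sq_abs h]
    exact pow_le_pow_left₀ (norm_nonneg _) hd 2
  have h3 : 2 * (h ^ 2 * (‖p‖ - 2 * ε)) / ‖p‖ ≤ 2 * (h * ⟪p, d⟫) / ‖p‖ := by
    apply div_le_div_of_nonneg_right _ hp.le
    linarith
  have h4 : 2 * (h ^ 2 * (‖p‖ - 2 * ε)) / ‖p‖ = 2 * h ^ 2 - 4 * ε / ‖p‖ * h ^ 2 := by
    field_simp
    ring
  rw [h1]
  linarith

theorem hasDerivWithinAt_stream {u : E → ℝ} {Ω : Set E} (hΩ : IsOpen Ω)
    (hd : ContDiffOn ℝ 1 u Ω) {γ : ℝ → E}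
    (hl : ∀ s t : ℝ, 0 ≤ s → s ≤ t → ‖γ t - γ s‖ ≤ t - s)
    (hi : ∀ s t : ℝ, 0 ≤ s → s ≤ t → γ s ∈ Ω → γ t ∈ Ω →
        (t - s) * ‖gradient u (γ s)‖ ≤ u (γ t) - u (γ s))
    {t : ℝ} (ht : 0 ≤ t) (htΩ : γ t ∈ Ω) (hne : gradient u (γ t) ≠ 0) :
    HasDerivWithinAt γ (‖gradient u (γ t)‖⁻¹ • gradient u (γ t)) (Ici 0) t := by
  have hl' : ∀ s : ℝ, 0 ≤ s → ‖γ s - γ t‖ ≤ |s - t| := by
    intro s hs
    rcases le_total s t with h | h
    · rw [norm_sub_rev, abs_sub_comm, abs_of_nonneg (by linarith)]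
      exact hl s t hs h
    · rw [abs_of_nonneg (by linarith)]
      exact hl t s ht h
  have hcont : ContinuousWithinAt γ (Ici 0) t := by
    rw [Metric.continuousWithinAt_iff]
    intro ε hε
    refine ⟨ε, hε, fun s hs hst => ?_⟩
    rw [dist_eq_norm]
    rw [Real.dist_eq] at hst
    exact (hl' s hs).trans_lt hst
  set p : E := gradient u (γ t) with hp
  have hp0 : 0 < ‖p‖ := norm_pos_iff.2 hne
  rw [hasDerivWithinAt_iff_isLittleO, Asymptotics.isLittleO_iff]
  intro c hc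
  set ε : ℝ := c ^ 2 * ‖p‖ / 4 with hε
  have hε0 : 0 < ε := by positivity
  have hA : ∀ᶠ s in 𝓝[Ici 0] t, |u (γ s) - u (γ t) - ⟪p, γ s - γ t⟫| ≤ ε * ‖γ s - γ t‖ := by
    have h1 : HasFDerivAt u (InnerProductSpace.toDual ℝ E p) (γ t) :=
      (differentiableAt_of hΩ hd htΩ).hasGradientAt.hasFDerivAt
    rw [hasFDerivAt_iff_isLittleO] at h1
    have h2 := (Asymptotics.isLittleO_iff.1 h1) hε0
    have h3 := hcont.tendsto.eventually h2
    filter_upwards [h3] with s hs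
    rw [Real.norm_eq_abs, InnerProductSpace.toDual_apply_apply] at hs
    exact hs
  have hB : ∀ᶠ s in 𝓝[Ici 0] t, γ s ∈ Ω ∧ ‖p‖ - ε < ‖gradient u (γ s)‖ := by
    have h1 : ∀ᶠ y in 𝓝 (γ t), y ∈ Ω ∧ ‖p‖ - ε < ‖gradient u y‖ := by
      have h2 : ContinuousAt (fun y => ‖gradient u y‖) (γ t) :=
        (continuousAt_gradient hΩ hd htΩ).norm
      have h3 : ∀ᶠ y in 𝓝 (γ t), ‖p‖ - ε < ‖gradient u y‖ :=
        h2.eventually (lt_mem_nhds (show ‖p‖ - ε < ‖p‖ by linarith))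
      filter_upwards [hΩ.mem_nhds htΩ, h3] with y h4 h5
      exact ⟨h4, h5⟩
    exact hcont.tendsto.eventually h1
  filter_upwards [hA, hB, self_mem_nhdsWithin] with s hsA hsB hs
  have hs0 : 0 ≤ s := hs
  have hds := hl' s hs0
  have hAb := abs_le.1 hsA
  have hkey : (s - t) ^ 2 * (‖p‖ - 2 * ε) ≤ (s - t) * ⟪p, γ s - γ t⟫ := by
    rcases le_total t s with h | h
    · have h1 := hi t s ht h htΩ hsB.1
      rw [← hp] at h1
      have h2 : ‖γ s - γ t‖ ≤ s - t := hl t s ht h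
      have h3 : (s - t) * (‖p‖ - ε) ≤ ⟪p, γ s - γ t⟫ := by
        have := mul_le_mul_of_nonneg_left h2 hε0.le
        linarith [hAb.2]
      have h4 : 0 ≤ s - t := by linarith
      have h5 := mul_le_mul_of_nonneg_left h3 h4
      have h6 : 0 ≤ (s - t) ^ 2 * ε := by positivity
      nlinarith
    · have h1 := hi s t hs0 h hsB.1 htΩ
      have h2 : ‖γ s - γ t‖ ≤ t - s := by
        rw [norm_sub_rev]
        exact hl s t hs0 h
      have h4 : 0 ≤ t - s := by linarith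
      have h3 : ⟪p, γ s - γ t⟫ ≤ -((t - s) * (‖p‖ - 2 * ε)) := by
        have e1 := mul_le_mul_of_nonneg_left h2 hε0.le
        have e2 := mul_le_mul_of_nonneg_left hsB.2.le h4
        linarith [hAb.1]
      have h5 := mul_le_mul_of_nonneg_left h3 h4
      nlinarith
  have hfin := near_direction hp0 hds hkey
  have e : 4 * ε / ‖p‖ = c ^ 2 := by
    rw [hε]
    field_simp
  rw [e] at hfin
  rw [Real.norm_eq_abs]
  have h7 : ‖γ s - γ t - (s - t) • (‖p‖⁻¹ • p)‖ ^ 2 ≤ (c * |s - t|) ^ 2 := by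
    rw [mul_pow, sq_abs]
    exact hfin
  exact le_of_sq_le_sq h7 (by positivity)

/-- The streamline through a noncritical point. -/
theorem streamline [FiniteDimensional ℝ E] {u : E → ℝ} {Ω : Set E} (hΩ : IsOpen Ω)
    (hu : ConeComp u Ω) (hd : ContDiffOn ℝ 1 u Ω) {x₀ : E} (hx₀ : x₀ ∈ Ω)
    (hne : gradient u x₀ ≠ 0) :
    ∃ (γ : ℝ → E) (I : Set ℝ), IsOpen I ∧ I.OrdConnected ∧ (0 : ℝ) ∈ I ∧ LipschitzWith 1 γ ∧
      γ 0 = x₀ ∧ (∀ t ∈ I, γ t ∈ Ω) ∧ (∀ t ∈ frontier I, γ t ∈ frontier Ω) ∧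
      (∀ t ∈ I, gradient u (γ t) ≠ 0 ∧
        HasDerivAt γ (‖gradient u (γ t)‖⁻¹ • gradient u (γ t)) t) ∧
      (∀ s ∈ I, ∀ t ∈ I, (0 ≤ s ∧ s ≤ t) ∨ (t ≤ s ∧ s ≤ 0) →
        ‖gradient u (γ s)‖ ≤ ‖gradient u (γ t)‖) ∧
      (∀ s ∈ I, ∀ t ∈ I, s ≤ t → (t - s) * ‖gradient u x₀‖ ≤ u (γ t) - u (γ s)) := by
  have hnt : Nontrivial E := ⟨gradient u x₀, 0, hne⟩
  obtain ⟨g, hg0, hgl, hgi⟩ := exists_halfline hΩ hu hd x₀
  obtain ⟨k, hk0, hkl, hki⟩ := exists_halfline hΩ hu.neg hd.neg x₀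
  have hgn : ∀ y : E, gradient (fun x => - u x) y = - gradient u y := by
    intro y
    unfold gradient
    rw [show (fun x => - u x) = -u from rfl, fderiv_neg, map_neg]
  have hki' : ∀ s t : ℝ, 0 ≤ s → s ≤ t → k s ∈ Ω → k t ∈ Ω →
      ‖gradient u (k s)‖ ≤ ‖gradient u (k t)‖ ∧
        (t - s) * ‖gradient u (k s)‖ ≤ u (k s) - u (k t) := by
    intro s t hs hst hsΩ htΩ
    have h1 := hki s t hs hst hsΩ htΩ
    simp only [hgn, norm_neg] at h1
    exact ⟨h1.1, by linarith [h1.2]⟩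
  let γ : ℝ → E := fun t => if 0 ≤ t then g t else k (-t)
  have hγp : ∀ t : ℝ, 0 ≤ t → γ t = g t := fun t ht => if_pos ht
  have hγn : ∀ t : ℝ, t ≤ 0 → γ t = k (-t) := by
    intro t ht
    rcases ht.lt_or_eq with h | h
    · exact if_neg (not_le.2 h)
    · rw [hγp t h.ge, h, neg_zero, hg0, hk0]
  have hγ0 : γ 0 = x₀ := by rw [hγp 0 le_rfl, hg0]
  have hLip : LipschitzWith 1 γ := by
    have key : ∀ s t : ℝ, s ≤ t → ‖γ t - γ s‖ ≤ t - s := by
      intro s t hst
      rcases le_total 0 s with hs | hs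
      · rw [hγp s hs, hγp t (hs.trans hst)]
        exact hgl s t hs hst
      · rcases le_total 0 t with ht | ht
        · have h1 := hgl 0 t le_rfl ht
          have h2 := hkl 0 (-s) le_rfl (by linarith)
          rw [hγp t ht, hγn s hs]
          rw [hg0] at h1
          rw [hk0] at h2
          have h3 : g t - k (-s) = (g t - x₀) - (k (-s) - x₀) := by abel
          rw [h3]
          refine (norm_sub_le _ _).trans ?_
          linarith
        · rw [hγn s hs, hγn t ht, norm_sub_rev]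
          have := hkl (-t) (-s) (by linarith) (by linarith)
          linarith
    apply LipschitzWith.of_dist_le_mul
    intro s t
    rw [NNReal.coe_one, one_mul, dist_eq_norm, Real.dist_eq]
    rcases le_total s t with h | h
    · rw [norm_sub_rev, abs_sub_comm, abs_of_nonneg (by linarith)]
      exact key s t h
    · rw [abs_of_nonneg (by linarith)]
      exact key t s h
  let U : Set ℝ := γ ⁻¹' Ω
  have hUo : IsOpen U := hΩ.preimage hLip.continuous
  have h0U : (0 : ℝ) ∈ U := by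
    change γ 0 ∈ Ω
    rwa [hγ0]
  let I : Set ℝ := connectedComponentIn U 0
  have hIU : I ⊆ U := connectedComponentIn_subset U 0
  have hI0 : (0 : ℝ) ∈ I := mem_connectedComponentIn h0U
  have hIo : IsOpen I := hUo.connectedComponentIn
  have hIp : IsPreconnected I := isPreconnected_connectedComponentIn
  have hmono : ∀ s ∈ I, ∀ t ∈ I, (0 ≤ s ∧ s ≤ t) ∨ (t ≤ s ∧ s ≤ 0) →
        ‖gradient u (γ s)‖ ≤ ‖gradient u (γ t)‖ := by
    intro s hs t ht hst
    have hsU : γ s ∈ Ω := hIU hs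
    have htU : γ t ∈ Ω := hIU ht
    rcases hst with ⟨h1, h2⟩ | ⟨h1, h2⟩
    · rw [hγp s h1] at hsU ⊢
      rw [hγp t (h1.trans h2)] at htU ⊢
      exact (hgi s t h1 h2 hsU htU).1
    · rw [hγn s h2] at hsU ⊢
      rw [hγn t (h1.trans h2)] at htU ⊢
      exact (hki' (-s) (-t) (by linarith) (by linarith) hsU htU).1
  have hge : ∀ t ∈ I, ‖gradient u x₀‖ ≤ ‖gradient u (γ t)‖ := by
    intro t ht
    have := hmono 0 hI0 t ht (by
      rcases le_total 0 t with h | h
      · exact Or.inl ⟨le_rfl, h⟩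
      · exact Or.inr ⟨h, le_rfl⟩)
    rwa [hγ0] at this
  have hne' : ∀ t ∈ I, gradient u (γ t) ≠ 0 := by
    intro t ht h0
    have h1 := hge t ht
    rw [h0, norm_zero] at h1
    exact hne (norm_le_zero_iff.1 h1)
  refine ⟨γ, I, hIo, hIp.ordConnected, hI0, hLip, hγ0, fun t ht => hIU ht, ?_, ?_, hmono, ?_⟩
  · intro t ht
    rw [hIo.frontier_eq] at ht
    have h1 : γ t ∈ closure Ω := by
      have h2 := map_mem_closure hLip.continuous ht.1 (fun s hs => hIU hs)
      exact h2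
    refine (hΩ.frontier_eq ▸ (⟨h1, ?_⟩ : γ t ∈ closure Ω \ Ω))
    intro h3
    have hpre : IsPreconnected (insert t I) :=
      hIp.subset_closure (subset_insert t I) (insert_subset ht.1 subset_closure)
    have hsub : insert t I ⊆ U := insert_subset h3 hIU
    have h4 : insert t I ⊆ I :=
      hpre.subset_connectedComponentIn (mem_insert_of_mem t hI0) hsub
    exact ht.2 (h4 (mem_insert t I))
  · intro t ht
    have hne1 := hne' t ht
    refine ⟨hne1, ?_⟩
    have htU : γ t ∈ Ω := hIU ht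
    -- the forward half
    have hfw : 0 ≤ t → HasDerivWithinAt γ (‖gradient u (γ t)‖⁻¹ • gradient u (γ t)) (Ici 0) t := by
      intro h0
      rw [hγp t h0] at htU hne1 ⊢
      have h1 := hasDerivWithinAt_stream hΩ hd hgl (fun s t h1 h2 h3 h4 => (hgi s t h1 h2 h3 h4).2)
        h0 htU hne1
      exact h1.congr (fun s hs => hγp s hs) (hγp t h0)
    have hbw : t ≤ 0 → HasDerivWithinAt γ (‖gradient u (γ t)‖⁻¹ • gradient u (γ t)) (Iic 0) t := by
      intro h0
      rw [hγn t h0] at htU hne1 ⊢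
      have h1 := hasDerivWithinAt_stream (u := fun x => - u x) hΩ hd.neg hkl
        (fun s t h1 h2 h3 h4 => (hki s t h1 h2 h3 h4).2) (t := -t) (by linarith) htU
        (by rw [hgn]; exact neg_ne_zero.2 hne1)
      rw [hgn, norm_neg] at h1
      have h2 : HasDerivWithinAt (fun s : ℝ => -s) (-1) (Iic 0) t :=
        (hasDerivAt_neg t).hasDerivWithinAt
      have h3 := h1.scomp t h2 (fun s hs => by
        have : s ≤ 0 := hs
        change 0 ≤ -s
        linarith)
      rw [smul_neg, smul_neg, neg_smul, one_smul, neg_neg] at h3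
      exact h3.congr (fun s hs => hγn s hs) (hγn t h0)
    rcases lt_trichotomy t 0 with h0 | h0 | h0
    · exact (hbw h0.le).hasDerivAt (Iic_mem_nhds h0)
    · have h1 := (hbw h0.le).union (hfw h0.ge)
      rw [Iic_union_Ici] at h1
      exact hasDerivWithinAt_univ.1 h1
    · exact (hfw h0.le).hasDerivAt (Ici_mem_nhds h0)
  · intro s hs t ht hst
    have hsU : γ s ∈ Ω := hIU hs
    have htU : γ t ∈ Ω := hIU ht
    have hgs := hge s hs
    have hgt := hge t ht
    rcases le_total 0 s with h0 | h0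
    · rw [hγp s h0] at hsU hgs ⊢
      rw [hγp t (h0.trans hst)] at htU ⊢
      have h1 := (hgi s t h0 hst hsU htU).2
      have h2 := mul_le_mul_of_nonneg_left hgs (sub_nonneg.2 hst)
      linarith
    · rcases le_total t 0 with h1 | h1
      · rw [hγn s h0] at hsU ⊢
        rw [hγn t h1] at htU hgt ⊢
        have h2 := (hki' (-t) (-s) (by linarith) (by linarith) htU hsU).2
        have h3 := mul_le_mul_of_nonneg_left hgt (sub_nonneg.2 hst)
        linarith
      · rw [hγn s h0] at hsU ⊢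
        rw [hγp t h1] at htU ⊢
        have h2 := (hgi 0 t le_rfl h1 (by rwa [hg0]) htU).2
        have h3 := (hki' 0 (-s) le_rfl (by linarith) (by rwa [hk0]) hsU).2
        rw [hg0] at h2
        rw [hk0] at h3
        linarith

end Curve

end Vale.Agent.P080.H510
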