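import Vale.Agent.P080.H510.Cone

/-!
Streamlines of continuously differentiable functions which enjoy comparison with cones.
-/

namespace Vale.Agent.P080.H510

open Vale.Agent.P080 Metric Set Filter
open scoped RealInnerProductSpace Topology NNReal

theorem deriv_le_of_right {f : ℝ → ℝ} {f' c : ℝ} (hf : HasDerivAt f f' 0)
    (h : ∀ t : ℝ, 0 < t → t ≤ 1 → f t - f 0 ≤ c * t) : f' ≤ c := by
  have h1 := hf.tendsto_slope_zero_right
  refine le_of_tendsto h1 ?_
  have h2 : ∀ᶠ t : ℝ in 𝓝[>] 0, t < 1 :=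
    mem_nhdsWithin_of_mem_nhds (Iio_mem_nhds zero_lt_one)
  filter_upwards [self_mem_nhdsWithin, h2] with t ht ht1
  have ht0 : 0 < t := ht
  simp only [zero_add, smul_eq_mul]
  rw [inv_mul_le_iff₀ ht0]
  have := h t ht0 ht1.le
  linarith

section Step

variable {E : Type*} [NormedAddCommGroup E] [InnerProductSpace ℝ E] [CompleteSpace E]

theorem hasDerivAt_line {u : E → ℝ} {x : E} (h : DifferentiableAt ℝ u x) (v : E) :
    HasDerivAt (fun t : ℝ => u (x + t • v)) ⟪gradient u x, v⟫ 0 := by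
  have h1 : HasDerivAt (fun t : ℝ => x + t • v) v 0 := by
    simpa using ((hasDerivAt_id (0 : ℝ)).smul_const v).const_add x
  have h2 : HasFDerivAt u (InnerProductSpace.toDual ℝ E (gradient u x)) (x + (0 : ℝ) • v) := by
    rw [zero_smul, add_zero]
    exact h.hasGradientAt.hasFDerivAt
  have h3 := h2.comp_hasDerivAt (0 : ℝ) h1
  rw [InnerProductSpace.toDual_apply_apply] at h3
  exact h3

theorem step [FiniteDimensional ℝ E] [Nontrivial E] {u : E → ℝ} {Ω : Set E} (hu : ConeComp u Ω)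
    (hd : ∀ y ∈ Ω, DifferentiableAt ℝ u y) {x : E} {δ : ℝ} (hδ : 0 < δ)
    (hsub : closedBall x δ ⊆ Ω) :
    ∃ x' : E, ‖x' - x‖ = δ ∧ δ * ‖gradient u x‖ ≤ u x' - u x ∧
      ‖gradient u x‖ ≤ ‖gradient u x'‖ := by
  obtain ⟨x', hx', hmax⟩ := (isCompact_sphere x δ).exists_isMaxOn
    (NormedSpace.sphere_nonempty.2 hδ.le) (hu.cont.mono (sphere_subset_closedBall.trans hsub))
  have hmax' : ∀ w ∈ sphere x δ, u w ≤ u x' := fun w hw => hmax hw
  have hx'n : ‖x' - x‖ = δ := by rwa [mem_sphere, dist_eq_norm] at hx'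
  have hcl : closure (ball x δ) ⊆ Ω := closure_ball_subset_closedBall.trans hsub
  have hxΩ : x ∈ Ω := hsub (mem_closedBall_self hδ.le)
  have hx'Ω : x' ∈ Ω := hsub (sphere_subset_closedBall hx')
  set σ : ℝ := (u x' - u x) / δ with hσ
  have hσδ : σ * δ = u x' - u x := by rw [hσ]; field_simp
  have hux : u x ≤ u x' := by
    have := hu.above (ball x δ) isOpen_ball isBounded_ball hcl x' (u x') 0 le_rfl
      (fun w hw => by
        have := hmax' w (frontier_ball_subset_sphere hw)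
        linarith)
      (fun h => by
        exfalso
        rw [mem_ball, dist_eq_norm, hx'n] at h
        exact lt_irrefl _ h) x (mem_ball_self hδ)
    linarith
  have hσ0 : 0 ≤ σ := div_nonneg (by linarith) hδ.le
  have hcone : ∀ w ∈ closedBall x δ, u w ≤ u x + σ * ‖w - x‖ := by
    have hs : ∀ w ∈ sphere x δ, u w ≤ u x + σ * ‖w - x‖ := by
      intro w hw
      have h1 := hmax' w hw
      rw [mem_sphere, dist_eq_norm] at hw
      rw [hw, hσδ]
      linarith
    intro w hw
    rcases (mem_closedBall.1 hw).lt_or_eq with h1 | h1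
    · exact hu.above (ball x δ) isOpen_ball isBounded_ball hcl x (u x) σ hσ0
        (fun w hw => hs w (frontier_ball_subset_sphere hw)) (fun _ => le_rfl) w h1
    · exact hs w h1
  have ha : δ * ‖gradient u x‖ ≤ u x' - u x := by
    rcases eq_or_ne (gradient u x) 0 with h0 | h0
    · rw [h0, norm_zero, mul_zero]
      linarith
    · have hp : 0 < ‖gradient u x‖ := norm_pos_iff.2 h0
      set v : E := (δ / ‖gradient u x‖) • gradient u x with hv
      have hvn : ‖v‖ = δ := by
        rw [hv, norm_smul, Real.norm_of_nonneg (by positivity)]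
        field_simp
      have hder := hasDerivAt_line (hd x hxΩ) v
      have hin : ⟪gradient u x, v⟫ = δ * ‖gradient u x‖ := by
        rw [hv, real_inner_smul_right, real_inner_self_eq_norm_sq]
        field_simp
      rw [hin] at hder
      refine deriv_le_of_right hder fun t ht0 ht1 => ?_
      have hmem : x + t • v ∈ closedBall x δ := by
        rw [mem_closedBall, dist_eq_norm, add_sub_cancel_left, norm_smul,
          Real.norm_of_nonneg ht0.le, hvn]
        nlinarith
      have h1 := hcone _ hmem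
      rw [add_sub_cancel_left, norm_smul, Real.norm_of_nonneg ht0.le, hvn] at h1
      simp only [zero_smul, add_zero]
      have h2 : σ * (t * δ) = (u x' - u x) * t := by rw [← hσδ]; ring
      linarith
  have hb : u x' - u x ≤ δ * ‖gradient u x'‖ := by
    have hder := hasDerivAt_line (hd x' hx'Ω) (x - x')
    have h1 : ⟪gradient u x', x - x'⟫ ≤ -(u x' - u x) := by
      refine deriv_le_of_right hder fun t ht0 ht1 => ?_
      have e : x' + t • (x - x') - x = (1 - t) • (x' - x) := by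
        module
      have en : ‖x' + t • (x - x') - x‖ = (1 - t) * δ := by
        rw [e, norm_smul, Real.norm_of_nonneg (by linarith), hx'n]
      have hmem : x' + t • (x - x') ∈ closedBall x δ := by
        rw [mem_closedBall, dist_eq_norm, en]
        nlinarith
      have h1 := hcone _ hmem
      rw [en] at h1
      simp only [zero_smul, add_zero]
      have h2 : σ * ((1 - t) * δ) = (u x' - u x) * (1 - t) := by rw [← hσδ]; ring
      linarith
    have h2 := abs_real_inner_le_norm (gradient u x') (x - x')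
    rw [norm_sub_rev x x', hx'n] at h2
    have h3 := (abs_le.1 h2).1
    linarith
  refine ⟨x', hx'n, ha, ?_⟩
  have h1 : δ * ‖gradient u x‖ ≤ δ * ‖gradient u x'‖ := ha.trans hb
  exact le_of_mul_le_mul_left h1 hδ

theorem exists_chain [FiniteDimensional ℝ E] [Nontrivial E] {u : E → ℝ} {Ω : Set E}
    (hu : ConeComp u Ω) (hd : ∀ y ∈ Ω, DifferentiableAt ℝ u y) (x₀ : E) {δ : ℝ} (hδ : 0 < δ) :
    ∃ X : ℕ → E, X 0 = x₀ ∧
      (∀ i j : ℕ, i ≤ j → ‖X j - X i‖ ≤ ((j : ℝ) - i) * δ) ∧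
      ∀ i j : ℕ, i ≤ j → closedBall (X j) δ ⊆ Ω →
        ‖gradient u (X i)‖ ≤ ‖gradient u (X j)‖ ∧
        ((j : ℝ) - i) * δ * ‖gradient u (X i)‖ ≤ u (X j) - u (X i) := by
  have hS : ∀ x : E, ∃ x' : E, (closedBall x δ ⊆ Ω → ‖x' - x‖ = δ ∧
      δ * ‖gradient u x‖ ≤ u x' - u x ∧ ‖gradient u x‖ ≤ ‖gradient u x'‖) ∧
      (¬ closedBall x δ ⊆ Ω → x' = x) := by
    intro x
    by_cases h : closedBall x δ ⊆ Ω
    · obtain ⟨x', hx'⟩ := step hu hd hδ h
      exact ⟨x', fun _ => hx', fun h' => absurd h h'⟩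
    · exact ⟨x, fun h' => absurd h' h, fun _ => rfl⟩
  choose S hS1 hS2 using hS
  let X : ℕ → E := fun n => Nat.rec x₀ (fun _ y => S y) n
  have hX0 : X 0 = x₀ := rfl
  have hXs : ∀ n, X (n + 1) = S (X n) := fun _ => rfl
  have hstep : ∀ n, ‖X (n + 1) - X n‖ ≤ δ := by
    intro n
    rw [hXs]
    by_cases h : closedBall (X n) δ ⊆ Ω
    · exact (hS1 _ h).1.le
    · rw [hS2 _ h, sub_self, norm_zero]
      exact hδ.le
  have hdead : ∀ i j : ℕ, i ≤ j → ¬ closedBall (X i) δ ⊆ Ω → X j = X i := by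
    intro i j hij hi
    induction j, hij using Nat.le_induction with
    | base => rfl
    | succ j hij ih =>
      rw [hXs, hS2 (X j) (by rwa [ih]), ih]
  have halive : ∀ i j : ℕ, i ≤ j → closedBall (X j) δ ⊆ Ω → closedBall (X i) δ ⊆ Ω := by
    intro i j hij hj
    by_contra hi
    rw [hdead i j hij hi] at hj
    exact hi hj
  refine ⟨X, hX0, ?_, ?_⟩
  · intro i j hij
    induction j, hij using Nat.le_induction with
    | base => simp
    | succ j hij ih =>
      have h1 : X (j + 1) - X i = (X (j + 1) - X j) + (X j - X i) := by abel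
      rw [h1]
      refine (norm_add_le _ _).trans ?_
      have h2 := hstep j
      push_cast
      nlinarith
  · intro i j hij
    induction j, hij using Nat.le_induction with
    | base =>
      intro _
      simp
    | succ j hij ih =>
      intro hj
      have hj' := halive j (j + 1) (Nat.le_succ j) hj
      obtain ⟨h1, h2⟩ := ih hj'
      obtain ⟨-, h3, h4⟩ := hS1 _ hj'
      rw [← hXs] at h3 h4
      refine ⟨h1.trans h4, ?_⟩
      have h5 : δ * ‖gradient u (X i)‖ ≤ δ * ‖gradient u (X j)‖ :=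
        mul_le_mul_of_nonneg_left h1 hδ.le
      push_cast
      nlinarith

theorem continuousAt_gradient {u : E → ℝ} {Ω : Set E} (hΩ : IsOpen Ω)
    (hd : ContDiffOn ℝ 1 u Ω) {x : E} (hx : x ∈ Ω) : ContinuousAt (gradient u) x := by
  have h1 : ContinuousAt (fderiv ℝ u) x :=
    (hd.continuousOn_fderiv_of_isOpen hΩ le_rfl).continuousAt (hΩ.mem_nhds hx)
  exact ((InnerProductSpace.toDual ℝ E).symm.continuous.continuousAt).comp h1

theorem differentiableAt_of {u : E → ℝ} {Ω : Set E} (hΩ : IsOpen Ω)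
    (hd : ContDiffOn ℝ 1 u Ω) {x : E} (hx : x ∈ Ω) : DifferentiableAt ℝ u x :=
  (hd.contDiffAt (hΩ.mem_nhds hx)).differentiableAt (by norm_num)

/-- The limit of the chains. -/
theorem exists_halfline [FiniteDimensional ℝ E] [Nontrivial E] {u : E → ℝ} {Ω : Set E}
    (hΩ : IsOpen Ω) (hu : ConeComp u Ω) (hd : ContDiffOn ℝ 1 u Ω) (x₀ : E) :
    ∃ γ : ℝ → E, γ 0 = x₀ ∧ (∀ s t : ℝ, 0 ≤ s → s ≤ t → ‖γ t - γ s‖ ≤ t - s) ∧
      ∀ s t : ℝ, 0 ≤ s → s ≤ t → γ s ∈ Ω → γ t ∈ Ω →
        ‖gradient u (γ s)‖ ≤ ‖gradient u (γ t)‖ ∧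
        (t - s) * ‖gradient u (γ s)‖ ≤ u (γ t) - u (γ s) := by
  have hpos : ∀ n : ℕ, (0 : ℝ) < 1 / ((n : ℝ) + 1) := fun n => by positivity
  choose X hX0 hXl hXi using fun n : ℕ => exists_chain hu
    (fun y hy => differentiableAt_of hΩ hd hy) x₀ (hpos n)
  let F : Ultrafilter ℕ := Filter.hyperfilter ℕ
  have hF : (F : Filter ℕ) ≤ atTop := Nat.hyperfilter_le_atTop
  let a : ℝ → ℕ → E := fun t n => X n ⌊t * ((n : ℝ) + 1)⌋₊
  have hfl : ∀ (t : ℝ), 0 ≤ t → ∀ n : ℕ, (⌊t * ((n : ℝ) + 1)⌋₊ : ℝ) ≤ t * ((n : ℝ) + 1) :=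
    fun t ht n => Nat.floor_le (by positivity)
  have hfl' : ∀ (t : ℝ) (n : ℕ), t * ((n : ℝ) + 1) < (⌊t * ((n : ℝ) + 1)⌋₊ : ℝ) + 1 :=
    fun t n => Nat.lt_floor_add_one _
  have hmono : ∀ s t : ℝ, s ≤ t → ∀ n : ℕ, ⌊s * ((n : ℝ) + 1)⌋₊ ≤ ⌊t * ((n : ℝ) + 1)⌋₊ :=
    fun s t hst n => Nat.floor_le_floor (by gcongr)
  have hlip : ∀ s t : ℝ, 0 ≤ s → s ≤ t → ∀ n : ℕ,
      ‖a t n - a s n‖ ≤ t - s + 1 / ((n : ℝ) + 1) := by
    intro s t hs hst n
    refine (hXl n _ _ (hmono s t hst n)).trans ?_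
    have h1 := hfl t (hs.trans hst) n
    have h2 := hfl' s n
    have hn : (0 : ℝ) < (n : ℝ) + 1 := by positivity
    rw [mul_one_div, div_le_iff₀ hn]
    have h3 : (t - s + 1 / ((n : ℝ) + 1)) * ((n : ℝ) + 1) =
        t * ((n : ℝ) + 1) - s * ((n : ℝ) + 1) + 1 := by field_simp
    rw [h3]
    linarith
  have hex : ∀ t : ℝ, ∃ y : E, Tendsto (a t) F (𝓝 y) := by
    intro t
    have hcomp := isCompact_closedBall x₀ (|t| + 1)
    have hmem : ∀ n, a t n ∈ closedBall x₀ (|t| + 1) := by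
      intro n
      rw [mem_closedBall, dist_eq_norm]
      rcases le_or_gt 0 t with ht | ht
      · have h1 := hlip 0 t le_rfl ht n
        have h2 : a 0 n = x₀ := by
          simp only [a, zero_mul, Nat.floor_zero, hX0]
        rw [h2] at h1
        have h3 : 1 / ((n : ℝ) + 1) ≤ 1 := by
          rw [div_le_one (by positivity)]
          linarith [(Nat.cast_nonneg n : (0 : ℝ) ≤ n)]
        rw [abs_of_nonneg ht]
        linarith
      · have h2 : a t n = x₀ := by
          have : ⌊t * ((n : ℝ) + 1)⌋₊ = 0 := Nat.floor_of_nonpos (by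
            have : (0 : ℝ) < (n : ℝ) + 1 := by positivity
            nlinarith)
          simp only [a, this, hX0]
        rw [h2, sub_self, norm_zero]
        positivity
    obtain ⟨y, -, hy⟩ := hcomp.ultrafilter_le_nhds (F.map (a t)) (by
      rw [Ultrafilter.coe_map, le_principal_iff, mem_map]
      exact univ_mem' hmem)
    exact ⟨y, hy⟩
  choose γ hγ using hex
  have hinv : Tendsto (fun n : ℕ => 1 / ((n : ℝ) + 1)) F (𝓝 0) :=
    (tendsto_one_div_add_atTop_nhds_zero_nat (𝕜 := ℝ)).mono_left hF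
  have hγ0 : γ 0 = x₀ := by
    have h1 : a 0 = fun _ => x₀ := by
      funext n
      simp only [a, zero_mul, Nat.floor_zero, hX0]
    have h2 := hγ 0
    rw [h1] at h2
    exact tendsto_nhds_unique h2 tendsto_const_nhds
  refine ⟨γ, hγ0, ?_, ?_⟩
  · intro s t hs hst
    have h1 : Tendsto (fun n => ‖a t n - a s n‖) F (𝓝 ‖γ t - γ s‖) :=
      ((hγ t).sub (hγ s)).norm
    have h2 : Tendsto (fun n : ℕ => t - s + 1 / ((n : ℝ) + 1)) F (𝓝 (t - s + 0)) :=
      hinv.const_add _
    rw [add_zero] at h2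
    exact le_of_tendsto_of_tendsto h1 h2 (Eventually.of_forall fun n => hlip s t hs hst n)
  · intro s t hs hst hsΩ htΩ
    have hev : ∀ᶠ n in (F : Filter ℕ), closedBall (a t n) (1 / ((n : ℝ) + 1)) ⊆ Ω := by
      obtain ⟨r, hr, hball⟩ := Metric.isOpen_iff.1 hΩ _ htΩ
      have h1 : ∀ᶠ n in (F : Filter ℕ), dist (a t n) (γ t) < r / 2 :=
        (hγ t).eventually (ball_mem_nhds _ (by positivity))
      have h2 : ∀ᶠ n : ℕ in (F : Filter ℕ), 1 / ((n : ℝ) + 1) < r / 2 :=
        hinv.eventually (gt_mem_nhds (by positivity))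
      filter_upwards [h1, h2] with n hn1 hn2 w hw
      apply hball
      rw [mem_closedBall] at hw
      rw [mem_ball]
      linarith [dist_triangle w (a t n) (γ t)]
    have hgs : Tendsto (fun n => ‖gradient u (a s n)‖) F (𝓝 ‖gradient u (γ s)‖) :=
      ((continuousAt_gradient hΩ hd hsΩ).tendsto.comp (hγ s)).norm
    have hgt : Tendsto (fun n => ‖gradient u (a t n)‖) F (𝓝 ‖gradient u (γ t)‖) :=
      ((continuousAt_gradient hΩ hd htΩ).tendsto.comp (hγ t)).norm
    have hus : Tendsto (fun n => u (a s n)) F (𝓝 (u (γ s))) :=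
      (differentiableAt_of hΩ hd hsΩ).continuousAt.tendsto.comp (hγ s)
    have hut : Tendsto (fun n => u (a t n)) F (𝓝 (u (γ t))) :=
      (differentiableAt_of hΩ hd htΩ).continuousAt.tendsto.comp (hγ t)
    refine ⟨?_, ?_⟩
    · refine le_of_tendsto_of_tendsto hgs hgt ?_
      filter_upwards [hev] with n hn
      exact (hXi n _ _ (hmono s t hst n) hn).1
    · have h1 : Tendsto (fun n : ℕ => (t - s - 1 / ((n : ℝ) + 1)) * ‖gradient u (a s n)‖) F
          (𝓝 ((t - s - 0) * ‖gradient u (γ s)‖)) := (hinv.const_sub _).mul hgs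
      rw [sub_zero] at h1
      refine le_of_tendsto_of_tendsto h1 (hut.sub hus) ?_
      filter_upwards [hev] with n hn
      have h2 := (hXi n _ _ (hmono s t hst n) hn).2
      refine le_trans ?_ h2
      apply mul_le_mul_of_nonneg_right _ (norm_nonneg _)
      have hn0 : (0 : ℝ) < (n : ℝ) + 1 := by positivity
      have h3 := hfl s hs n
      have h4 := hfl' t n
      rw [mul_one_div, le_div_iff₀ hn0]
      have h5 : (t - s - 1 / ((n : ℝ) + 1)) * ((n : ℝ) + 1) =
          t * ((n : ℝ) + 1) - s * ((n : ℝ) + 1) - 1 := by field_simp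
      rw [h5]
      linarith

end Step

end Vale.Agent.P080.H510
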