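import Vale.Agent.P080.H510.Curve
import Mathlib.Analysis.Calculus.FDeriv.Symmetric

/-!
Comparison with cones implies the viscosity inequalities: along the streamline.
-/

namespace Vale.Agent.P080.H510

open Vale.Agent.P080 Metric Set Filter
open scoped RealInnerProductSpace Topology NNReal

section Visc

variable {E : Type} [NormedAddCommGroup E] [InnerProductSpace ℝ E] [CompleteSpace E]

/-- Second order Taylor expansion of a `C²` function. -/
theorem taylor_two {φ : E → ℝ} (hφ : ContDiff ℝ 2 φ) (z : E) {c : ℝ} (hc : 0 < c) :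
    ∃ δ > 0, ∀ h : E, ‖h‖ < δ →
      |φ (z + h) - φ z - fderiv ℝ φ z h - 1 / 2 * fderiv ℝ (fderiv ℝ φ) z h h| ≤ c * ‖h‖ ^ 2 := by
  set A : E →L[ℝ] E →L[ℝ] ℝ := fderiv ℝ (fderiv ℝ φ) z with hA
  have hsymm : ∀ v w, A v w = A w v := by
    have h1 : IsSymmSndFDerivAt ℝ φ z := hφ.contDiffAt.isSymmSndFDerivAt (by simp)
    exact fun v w => h1 v w
  have hd1 : Differentiable ℝ φ := hφ.differentiable (by norm_num)
  have hcd : ContDiff ℝ 1 (fderiv ℝ φ) := hφ.fderiv_right (by norm_num)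
  have hd2 : HasFDerivAt (fderiv ℝ φ) A z := (hcd.differentiable (by norm_num) z).hasFDerivAt
  rw [hasFDerivAt_iff_isLittleO] at hd2
  obtain ⟨δ, hδ, hball⟩ := Metric.eventually_nhds_iff_ball.1 ((Asymptotics.isLittleO_iff.1 hd2) hc)
  refine ⟨δ, hδ, fun h hh => ?_⟩
  set ψ : E → ℝ := fun k => φ (z + k) - fderiv ℝ φ z k - 1 / 2 * A k k with hψ
  have hder : ∀ k : E, HasFDerivAt ψ (fderiv ℝ φ (z + k) - fderiv ℝ φ z - A k) k := by
    intro k
    have h1 : HasFDerivAt (fun k : E => φ (z + k)) (fderiv ℝ φ (z + k)) k := by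
      have := (hd1 (z + k)).hasFDerivAt.comp k ((hasFDerivAt_id k).const_add z)
      rw [ContinuousLinearMap.comp_id] at this
      exact this
    have h2 : HasFDerivAt (fun k : E => fderiv ℝ φ z k) (fderiv ℝ φ z) k :=
      (fderiv ℝ φ z).hasFDerivAt
    have h3 : HasFDerivAt (fun k : E => A k k) ((A k).comp (ContinuousLinearMap.id ℝ E) +
        (A.flip k)) k := by
      have := A.hasFDerivAt (x := k) |>.clm_apply (hasFDerivAt_id k)
      simpa using this
    have h4 : HasFDerivAt (fun k : E => 1 / 2 * A k k) ((1 / 2 : ℝ) • ((A k).comp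
        (ContinuousLinearMap.id ℝ E) + (A.flip k))) k := h3.const_mul _
    have h5 := (h1.sub h2).sub h4
    have e : (1 / 2 : ℝ) • ((A k).comp (ContinuousLinearMap.id ℝ E) + (A.flip k)) = A k := by
      ext v
      simp only [smul_apply, add_apply,
        ContinuousLinearMap.comp_apply, ContinuousLinearMap.id_apply,
        ContinuousLinearMap.flip_apply, smul_eq_mul]
      rw [hsymm v k]
      ring
    rw [e] at h5
    exact h5
  have hbound : ∀ k ∈ closedBall (0 : E) ‖h‖,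
      ‖fderiv ℝ φ (z + k) - fderiv ℝ φ z - A k‖ ≤ c * ‖h‖ := by
    intro k hk
    rw [mem_closedBall, dist_zero_right] at hk
    have h1 := hball (z + k) (by
      rw [mem_ball, dist_eq_norm, add_sub_cancel_left]
      exact hk.trans_lt hh)
    rw [add_sub_cancel_left] at h1
    exact h1.trans (mul_le_mul_of_nonneg_left hk hc.le)
  have hfin := Convex.norm_image_sub_le_of_norm_hasFDerivWithin_le (𝕜 := ℝ) (f := ψ)
    (f' := fun k => fderiv ℝ φ (z + k) - fderiv ℝ φ z - A k) (s := closedBall (0 : E) ‖h‖)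
    (C := c * ‖h‖) (fun k _ => (hder k).hasFDerivWithinAt) hbound (convex_closedBall _ _)
    (mem_closedBall_self (norm_nonneg h)) (y := h)
    (by rw [mem_closedBall, dist_zero_right])
  have e0 : ψ 0 = φ z := by simp [hψ]
  rw [e0, sub_zero, Real.norm_eq_abs] at hfin
  have e1 : φ (z + h) - φ z - fderiv ℝ φ z h - 1 / 2 * A h h = ψ h - φ z := by
    simp only [hψ]
    ring
  rw [e1]
  refine hfin.trans (le_of_eq ?_)
  ring

theorem sub_of_cone [FiniteDimensional ℝ E] {u : E → ℝ} {Ω : Set E} (hΩ : IsOpen Ω)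
    (hu : ConeComp u Ω) {z : E} (hz : z ∈ Ω) {φ : E → ℝ} (hφ : ContDiff ℝ 2 φ)
    (hmax : IsLocalMax (fun x => u x - φ x) z) : 0 ≤ infLaplacian φ z := by
  have hd : ContDiffOn ℝ 1 u Ω := contDiffOn_of_cone hΩ hu
  have hdu : DifferentiableAt ℝ u z := differentiableAt_of hΩ hd hz
  have hdφ : DifferentiableAt ℝ φ z := hφ.differentiable (by norm_num) z
  have hgr : gradient u z = gradient φ z := by
    have h1 := hmax.fderiv_eq_zero
    rw [fderiv_fun_sub hdu hdφ, sub_eq_zero] at h1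
    unfold gradient
    rw [h1]
  rcases eq_or_ne (gradient φ z) 0 with h0 | h0
  · unfold infLaplacian
    rw [h0]
    simp
  set p : E := gradient φ z with hp
  have hp0 : 0 < ‖p‖ := norm_pos_iff.2 h0
  set ν : E := ‖p‖⁻¹ • p with hν
  have hνn : ‖ν‖ = 1 := by
    rw [hν, norm_smul, norm_inv, norm_norm, inv_mul_cancel₀ hp0.ne']
  have hnt : Nontrivial E := ⟨p, 0, h0⟩
  set A : E →L[ℝ] E →L[ℝ] ℝ := fderiv ℝ (fderiv ℝ φ) z with hA
  have hpν : p = ‖p‖ • ν := by
    rw [hν, smul_smul, mul_inv_cancel₀ hp0.ne', one_smul]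
  have hgoal : 0 ≤ A ν ν := by
    by_contra hneg
    push Not at hneg
    set κ : ℝ := - A ν ν with hκ
    have hκ0 : 0 < κ := by linarith
    obtain ⟨g, hg0, hgl, hgi⟩ := exists_halfline hΩ hu hd z
    have hgz : g 0 ∈ Ω := by rwa [hg0]
    have hder := hasDerivWithinAt_stream hΩ hd hgl
      (fun s t h1 h2 h3 h4 => (hgi s t h1 h2 h3 h4).2) (t := 0) le_rfl hgz
      (by rw [hg0, hgr]; exact h0)
    rw [hg0, hgr, ← hν] at hder
    have hsl : Tendsto (slope g 0) (𝓝[>] 0) (𝓝 ν) :=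
      (hasDerivWithinAt_iff_tendsto_slope' (self_notMem_Ioi)).1 (hder.mono Ioi_subset_Ici_self)
    have hAs : Tendsto (fun t => A (slope g 0 t) (slope g 0 t)) (𝓝[>] 0) (𝓝 (A ν ν)) := by
      have h1 : Continuous fun w : E => A w w := by fun_prop
      exact (h1.tendsto ν).comp hsl
    have h1 : ∀ᶠ t : ℝ in 𝓝[>] 0, A (slope g 0 t) (slope g 0 t) < -(κ / 2) :=
      hAs.eventually (gt_mem_nhds (by linarith))
    obtain ⟨δ, hδ, htay⟩ := taylor_two hφ z (show 0 < κ / 8 by positivity)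
    have h2 : ∀ᶠ t : ℝ in 𝓝[>] 0, t < δ := mem_nhdsWithin_of_mem_nhds (Iio_mem_nhds hδ)
    have hgc : Tendsto g (𝓝[>] 0) (𝓝 z) := by
      have := (hder.mono Ioi_subset_Ici_self : HasDerivWithinAt g ν (Ioi 0) 0).continuousWithinAt
      rw [ContinuousWithinAt, hg0] at this
      exact this
    have h3 : ∀ᶠ t : ℝ in 𝓝[>] 0, u (g t) - φ (g t) ≤ u z - φ z := hgc.eventually hmax
    have h4 : ∀ᶠ t : ℝ in 𝓝[>] 0, g t ∈ Ω := hgc.eventually (hΩ.mem_nhds hz)
    obtain ⟨t, ⟨⟨⟨h1, h2⟩, h3⟩, h4⟩, ht⟩ :=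
      ((((h1.and h2).and h3).and h4).and self_mem_nhdsWithin).exists
    have ht0 : 0 < t := ht
    have hgain := (hgi 0 t le_rfl ht0.le hgz h4).2
    rw [hg0, hgr, sub_zero] at hgain
    have hlen := hgl 0 t le_rfl ht0.le
    rw [hg0, sub_zero] at hlen
    have hsl2 : slope g 0 t = t⁻¹ • (g t - z) := by
      rw [slope_def_module, hg0, sub_zero]
    have hAh : A (g t - z) (g t - z) ≤ -(κ / 2) * t ^ 2 := by
      rw [hsl2, map_smul, map_smul, smul_apply, smul_eq_mul,
        smul_eq_mul] at h1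
      have h5 : t⁻¹ * (t⁻¹ * A (g t - z) (g t - z)) = A (g t - z) (g t - z) / t ^ 2 := by
        field_simp
      rw [h5, div_lt_iff₀ (by positivity)] at h1
      exact h1.le
    have hT := htay (g t - z) (hlen.trans_lt h2)
    rw [add_sub_cancel] at hT
    have hlin : fderiv ℝ φ z (g t - z) ≤ ‖p‖ * t := by
      have h5 : fderiv ℝ φ z (g t - z) = ⟪p, g t - z⟫ := by
        rw [hp, gradient, InnerProductSpace.toDual_symm_apply]
      rw [h5]
      exact (real_inner_le_norm _ _).trans (mul_le_mul_of_nonneg_left hlen (norm_nonneg _))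
    have hsq : ‖g t - z‖ ^ 2 ≤ t ^ 2 := pow_le_pow_left₀ (norm_nonneg _) hlen 2
    have hT2 := (abs_le.1 hT).2
    have h6 : κ / 8 * ‖g t - z‖ ^ 2 ≤ κ / 8 * t ^ 2 := mul_le_mul_of_nonneg_left hsq (by positivity)
    have h7 : 0 < κ * t ^ 2 := by positivity
    have h8 : A (g t - z) (g t - z) = fderiv ℝ (fderiv ℝ φ) z (g t - z) (g t - z) := rfl
    rw [← h8] at hT2
    nlinarith
  have hfin : infLaplacian φ z = ‖p‖ ^ 2 * A ν ν := by
    have h9 : ∀ (a : ℝ) (w : E), A (a • w) (a • w) = a ^ 2 * A w w := by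
      intro a w
      rw [map_smul, map_smul, smul_apply, smul_eq_mul, smul_eq_mul]
      ring
    have h10 := h9 ‖p‖ ν
    rw [← hpν] at h10
    exact h10
  rw [hfin]
  positivity

theorem infHarmonic_of_cone [FiniteDimensional ℝ E] {u : E → ℝ} {Ω : Set E} (hΩ : IsOpen Ω)
    (hu : ConeComp u Ω) : IsInfHarmonicOn u Ω := by
  refine ⟨hu.cont, fun z hz φ hφ h => sub_of_cone hΩ hu hz hφ h, fun z hz φ hφ h => ?_⟩
  have h1 := sub_of_cone hΩ hu.neg hz (φ := fun x => - φ x) hφ.neg (by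
    have h2 := h.neg
    have e : (fun x => -(u x - φ x)) = fun x => - u x - - φ x := by
      funext x
      ring
    rw [e] at h2
    exact h2)
  rw [infLaplacian_neg] at h1
  linarith

/-- Infinity-harmonic functions are exactly the absolutely minimizing Lipschitz functions. -/
theorem infHarmonic_iff [FiniteDimensional ℝ E] {u : E → ℝ} {Ω : Set E} (hΩ : IsOpen Ω) :
    IsInfHarmonicOn u Ω ↔ AbsMinLip u Ω :=
  ⟨fun h => absMinLip_of_coneComp h.coneComp, fun h => infHarmonic_of_cone hΩ h.coneComp⟩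

end Visc

end Vale.Agent.P080.H510
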